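import Mathlib
import Vale.Agent.Lib.P205.Warped

namespace Vale.Agent.Lib.P205

open Real
open scoped ContDiff

/-- The map `(x, y) ↦ (rot (k y) (u₁ x, v₁ x), rot (k y) (u₂ x, v₂ x))` into Euclidean
4-space, where `rot θ` is the rotation of the plane by the angle `θ`. -/
noncomputable def twistMap (u₁ v₁ u₂ v₂ : ℝ → ℝ) (k : ℝ) : ℝ × ℝ → EuclideanSpace ℝ (Fin 4) :=
  fun p => !₂[u₁ p.1 * cos (k * p.2) - v₁ p.1 * sin (k * p.2),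
    u₁ p.1 * sin (k * p.2) + v₁ p.1 * cos (k * p.2),
    u₂ p.1 * cos (k * p.2) - v₂ p.1 * sin (k * p.2),
    u₂ p.1 * sin (k * p.2) + v₂ p.1 * cos (k * p.2)]

theorem twistMap_contDiff {u₁ v₁ u₂ v₂ : ℝ → ℝ} (k : ℝ) (hu₁ : ContDiff ℝ ∞ u₁)
    (hv₁ : ContDiff ℝ ∞ v₁) (hu₂ : ContDiff ℝ ∞ u₂) (hv₂ : ContDiff ℝ ∞ v₂) :
    ContDiff ℝ ∞ (twistMap u₁ v₁ u₂ v₂ k) := by
  rw [contDiff_euclidean]
  intro i
  have a1 : ContDiff ℝ ∞ (fun p : ℝ × ℝ => u₁ p.1) := hu₁.comp contDiff_fst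
  have b1 : ContDiff ℝ ∞ (fun p : ℝ × ℝ => v₁ p.1) := hv₁.comp contDiff_fst
  have a2 : ContDiff ℝ ∞ (fun p : ℝ × ℝ => u₂ p.1) := hu₂.comp contDiff_fst
  have b2 : ContDiff ℝ ∞ (fun p : ℝ × ℝ => v₂ p.1) := hv₂.comp contDiff_fst
  have h3 : ContDiff ℝ ∞ (fun p : ℝ × ℝ => k * p.2) := contDiff_const.mul contDiff_snd
  have hc : ContDiff ℝ ∞ (fun p : ℝ × ℝ => cos (k * p.2)) := Real.contDiff_cos.comp h3
  have hs : ContDiff ℝ ∞ (fun p : ℝ × ℝ => sin (k * p.2)) := Real.contDiff_sin.comp h3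
  fin_cases i
  · show ContDiff ℝ ∞ (fun p : ℝ × ℝ => u₁ p.1 * cos (k * p.2) - v₁ p.1 * sin (k * p.2))
    exact (a1.mul hc).sub (b1.mul hs)
  · show ContDiff ℝ ∞ (fun p : ℝ × ℝ => u₁ p.1 * sin (k * p.2) + v₁ p.1 * cos (k * p.2))
    exact (a1.mul hs).add (b1.mul hc)
  · show ContDiff ℝ ∞ (fun p : ℝ × ℝ => u₂ p.1 * cos (k * p.2) - v₂ p.1 * sin (k * p.2))
    exact (a2.mul hc).sub (b2.mul hs)
  · show ContDiff ℝ ∞ (fun p : ℝ × ℝ => u₂ p.1 * sin (k * p.2) + v₂ p.1 * cos (k * p.2))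
    exact (a2.mul hs).add (b2.mul hc)

/-- The first fundamental form of `twistMap`, in terms of the derivatives of the four
profile functions at the base point. -/
theorem twistMap_inner {u₁ v₁ u₂ v₂ : ℝ → ℝ} {k : ℝ} {p : ℝ × ℝ} {du₁ dv₁ du₂ dv₂ : ℝ}
    (hd : DifferentiableAt ℝ (twistMap u₁ v₁ u₂ v₂ k) p)
    (hu₁ : HasDerivAt u₁ du₁ p.1) (hv₁ : HasDerivAt v₁ dv₁ p.1)
    (hu₂ : HasDerivAt u₂ du₂ p.1) (hv₂ : HasDerivAt v₂ dv₂ p.1) (v w : ℝ × ℝ) :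
    inner ℝ (fderiv ℝ (twistMap u₁ v₁ u₂ v₂ k) p v) (fderiv ℝ (twistMap u₁ v₁ u₂ v₂ k) p w) =
      (du₁ ^ 2 + dv₁ ^ 2 + du₂ ^ 2 + dv₂ ^ 2) * v.1 * w.1 +
        k * (u₁ p.1 * dv₁ - v₁ p.1 * du₁ + u₂ p.1 * dv₂ - v₂ p.1 * du₂) *
          (v.1 * w.2 + v.2 * w.1) +
        k ^ 2 * (u₁ p.1 ^ 2 + v₁ p.1 ^ 2 + u₂ p.1 ^ 2 + v₂ p.1 ^ 2) * v.2 * w.2 := by
  have hF : HasFDerivAt (twistMap u₁ v₁ u₂ v₂ k) (fderiv ℝ (twistMap u₁ v₁ u₂ v₂ k) p) p :=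
    hd.hasFDerivAt
  have hc : HasDerivAt (fun y : ℝ => cos (k * y)) (-(k * sin (k * p.2))) p.2 := by
    have h : HasDerivAt (fun y : ℝ => cos (k * y)) (-sin (k * p.2) * (k * 1)) p.2 :=
      ((hasDerivAt_id p.2).const_mul k).cos
    have e : -sin (k * p.2) * (k * 1) = -(k * sin (k * p.2)) := by ring
    rw [e] at h
    exact h
  have hs : HasDerivAt (fun y : ℝ => sin (k * y)) (k * cos (k * p.2)) p.2 := by
    have h : HasDerivAt (fun y : ℝ => sin (k * y)) (cos (k * p.2) * (k * 1)) p.2 :=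
      ((hasDerivAt_id p.2).const_mul k).sin
    have e : cos (k * p.2) * (k * 1) = k * cos (k * p.2) := by ring
    rw [e] at h
    exact h
  have key : ∀ (i : Fin 4) (L : ℝ × ℝ →L[ℝ] ℝ),
      HasFDerivAt (fun q => twistMap u₁ v₁ u₂ v₂ k q i) L p →
      ∀ u : ℝ × ℝ, (fderiv ℝ (twistMap u₁ v₁ u₂ v₂ k) p u) i = L u := by
    intro i L hL u
    have h := ((EuclideanSpace.proj (𝕜 := ℝ) i).hasFDerivAt).comp p hF
    have := h.unique hL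
    have := congrArg (fun M : ℝ × ℝ →L[ℝ] ℝ => M u) this
    simpa using this
  have e0 := key 0 _ ((hasFDerivAt_mul_sep hu₁ hc).sub (hasFDerivAt_mul_sep hv₁ hs))
  have e1 := key 1 _ ((hasFDerivAt_mul_sep hu₁ hs).add (hasFDerivAt_mul_sep hv₁ hc))
  have e2 := key 2 _ ((hasFDerivAt_mul_sep hu₂ hc).sub (hasFDerivAt_mul_sep hv₂ hs))
  have e3 := key 3 _ ((hasFDerivAt_mul_sep hu₂ hs).add (hasFDerivAt_mul_sep hv₂ hc))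
  simp only [PiLp.inner_apply, Fin.sum_univ_four, e0, e1, e2, e3]
  simp
  have hcs : cos (k * p.2) ^ 2 + sin (k * p.2) ^ 2 = 1 := cos_sq_add_sin_sq _
  linear_combination
    ((du₁ ^ 2 + dv₁ ^ 2 + du₂ ^ 2 + dv₂ ^ 2) * v.1 * w.1 +
        k * (u₁ p.1 * dv₁ - v₁ p.1 * du₁ + u₂ p.1 * dv₂ - v₂ p.1 * du₂) *
          (v.1 * w.2 + v.2 * w.1) +
        k ^ 2 * (u₁ p.1 ^ 2 + v₁ p.1 ^ 2 + u₂ p.1 ^ 2 + v₂ p.1 ^ 2) * v.2 * w.2) * hcs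

end Vale.Agent.Lib.P205
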