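import Mathlib
import Vale.Agent.Lib.P205.Twist.Map

namespace Vale.Agent.Lib.P205

open Real MeasureTheory
open scoped ContDiff

theorem hasDerivAt_mul3 {f g h : ℝ → ℝ} {f' g' h' x : ℝ} (c : ℝ) (hf : HasDerivAt f f' x)
    (hg : HasDerivAt g g' x) (hh : HasDerivAt h h' x) :
    HasDerivAt (fun x => c * f x * g x * h x)
      (c * (f' * g x * h x + f x * g' * h x + f x * g x * h')) x := by
  have h0 := ((hf.const_mul c).mul hg).mul hh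
  have e : c * (f' * g x * h x + f x * g' * h x + f x * g x * h') =
      (c * f' * g x + c * f x * g') * h x + c * f x * g x * h' := by ring
  rw [e]
  exact h0

/-- The map `(x, y) ↦ (r x / k) (cos (α x) e (k y + ψ₁ x), sin (α x) e (k y + ψ₂ x))`, where
`e θ = (cos θ, sin θ)`, written through `twistMap`. -/
noncomputable def polarMap (r α ψ₁ ψ₂ : ℝ → ℝ) (k : ℝ) : ℝ × ℝ → EuclideanSpace ℝ (Fin 4) :=
  twistMap (fun x => 1 / k * r x * cos (α x) * cos (ψ₁ x))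
    (fun x => 1 / k * r x * cos (α x) * sin (ψ₁ x))
    (fun x => 1 / k * r x * sin (α x) * cos (ψ₂ x))
    (fun x => 1 / k * r x * sin (α x) * sin (ψ₂ x)) k

theorem polarMap_contDiff {r α ψ₁ ψ₂ : ℝ → ℝ} (k : ℝ) (hr : ContDiff ℝ ∞ r)
    (hα : ContDiff ℝ ∞ α) (hψ₁ : ContDiff ℝ ∞ ψ₁) (hψ₂ : ContDiff ℝ ∞ ψ₂) :
    ContDiff ℝ ∞ (polarMap r α ψ₁ ψ₂ k) := by
  have hcr : ContDiff ℝ ∞ (fun x => 1 / k * r x) := contDiff_const.mul hr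
  have hca : ContDiff ℝ ∞ (fun x => cos (α x)) := Real.contDiff_cos.comp hα
  have hsa : ContDiff ℝ ∞ (fun x => sin (α x)) := Real.contDiff_sin.comp hα
  have hc1 : ContDiff ℝ ∞ (fun x => cos (ψ₁ x)) := Real.contDiff_cos.comp hψ₁
  have hs1 : ContDiff ℝ ∞ (fun x => sin (ψ₁ x)) := Real.contDiff_sin.comp hψ₁
  have hc2 : ContDiff ℝ ∞ (fun x => cos (ψ₂ x)) := Real.contDiff_cos.comp hψ₂
  have hs2 : ContDiff ℝ ∞ (fun x => sin (ψ₂ x)) := Real.contDiff_sin.comp hψ₂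
  exact twistMap_contDiff k ((hcr.mul hca).mul hc1) ((hcr.mul hca).mul hs1)
    ((hcr.mul hsa).mul hc2) ((hcr.mul hsa).mul hs2)

theorem polarMap_add_period {r α ψ₁ ψ₂ : ℝ → ℝ} (k : ℝ) {L : ℝ} {n₁ n₂ : ℤ}
    (hr : ∀ x, r (x + L) = r x) (hα : ∀ x, α (x + L) = α x)
    (hψ₁ : ∀ x, ψ₁ (x + L) = ψ₁ x + n₁ * (2 * π))
    (hψ₂ : ∀ x, ψ₂ (x + L) = ψ₂ x + n₂ * (2 * π)) (x y : ℝ) :
    polarMap r α ψ₁ ψ₂ k (x + L, y) = polarMap r α ψ₁ ψ₂ k (x, y) := by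
  simp only [polarMap, twistMap, hr x, hα x, hψ₁ x, hψ₂ x, Real.cos_add_int_mul_two_pi,
    Real.sin_add_int_mul_two_pi]

theorem polarMap_add_two_pi (r α ψ₁ ψ₂ : ℝ → ℝ) (k : ℕ) (x y : ℝ) :
    polarMap r α ψ₁ ψ₂ k (x, y + 2 * π) = polarMap r α ψ₁ ψ₂ k (x, y) := by
  have hc : cos ((k : ℝ) * (y + 2 * π)) = cos (k * y) := by
    rw [mul_add]
    exact Real.cos_add_nat_mul_two_pi _ k
  have hs : sin ((k : ℝ) * (y + 2 * π)) = sin (k * y) := by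
    rw [mul_add]
    exact Real.sin_add_nat_mul_two_pi _ k
  simp only [polarMap, twistMap, hc, hs]

/-- The first fundamental form of `polarMap`. -/
theorem polarMap_inner {r α ψ₁ ψ₂ : ℝ → ℝ} {k : ℝ} (hk : k ≠ 0) (hr : ContDiff ℝ ∞ r)
    (hα : ContDiff ℝ ∞ α) (hψ₁ : ContDiff ℝ ∞ ψ₁) (hψ₂ : ContDiff ℝ ∞ ψ₂) {p : ℝ × ℝ}
    {dr dα dψ₁ dψ₂ : ℝ} (h1 : HasDerivAt r dr p.1) (h2 : HasDerivAt α dα p.1)
    (h3 : HasDerivAt ψ₁ dψ₁ p.1) (h4 : HasDerivAt ψ₂ dψ₂ p.1) (v w : ℝ × ℝ) :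
    inner ℝ (fderiv ℝ (polarMap r α ψ₁ ψ₂ k) p v) (fderiv ℝ (polarMap r α ψ₁ ψ₂ k) p w) =
      1 / k ^ 2 * (dr ^ 2 + r p.1 ^ 2 * dα ^ 2 +
          r p.1 ^ 2 * (cos (α p.1) ^ 2 * dψ₁ ^ 2 + sin (α p.1) ^ 2 * dψ₂ ^ 2)) * v.1 * w.1 +
        1 / k * (r p.1 ^ 2 * (cos (α p.1) ^ 2 * dψ₁ + sin (α p.1) ^ 2 * dψ₂)) *
          (v.1 * w.2 + v.2 * w.1) +
        r p.1 ^ 2 * v.2 * w.2 := by
  have hd : DifferentiableAt ℝ (polarMap r α ψ₁ ψ₂ k) p :=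
    ((polarMap_contDiff k hr hα hψ₁ hψ₂).differentiable (by simp)) p
  have hca : HasDerivAt (fun x => cos (α x)) (-sin (α p.1) * dα) p.1 := h2.cos
  have hsa : HasDerivAt (fun x => sin (α x)) (cos (α p.1) * dα) p.1 := h2.sin
  have hc1 : HasDerivAt (fun x => cos (ψ₁ x)) (-sin (ψ₁ p.1) * dψ₁) p.1 := h3.cos
  have hs1 : HasDerivAt (fun x => sin (ψ₁ x)) (cos (ψ₁ p.1) * dψ₁) p.1 := h3.sin
  have hc2 : HasDerivAt (fun x => cos (ψ₂ x)) (-sin (ψ₂ p.1) * dψ₂) p.1 := h4.cos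
  have hs2 : HasDerivAt (fun x => sin (ψ₂ x)) (cos (ψ₂ p.1) * dψ₂) p.1 := h4.sin
  unfold polarMap at hd ⊢
  have e := twistMap_inner hd (hasDerivAt_mul3 (1 / k) h1 hca hc1)
    (hasDerivAt_mul3 (1 / k) h1 hca hs1) (hasDerivAt_mul3 (1 / k) h1 hsa hc2)
    (hasDerivAt_mul3 (1 / k) h1 hsa hs2) v w
  refine e.trans ?_
  have t1 : cos (α p.1) ^ 2 + sin (α p.1) ^ 2 = 1 := cos_sq_add_sin_sq _
  have t2 : cos (ψ₁ p.1) ^ 2 + sin (ψ₁ p.1) ^ 2 = 1 := cos_sq_add_sin_sq _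
  have t3 : cos (ψ₂ p.1) ^ 2 + sin (ψ₂ p.1) ^ 2 = 1 := cos_sq_add_sin_sq _
  have hkk : k * (1 / k) ^ 2 = 1 / k := by field_simp
  have hkk2 : k ^ 2 * (1 / k) ^ 2 = 1 := by field_simp
  generalize cos (α p.1) = ca at *
  generalize sin (α p.1) = sa at *
  generalize cos (ψ₁ p.1) = c1 at *
  generalize sin (ψ₁ p.1) = s1 at *
  generalize cos (ψ₂ p.1) = c2 at *
  generalize sin (ψ₂ p.1) = s2 at *
  generalize r p.1 = ρ at *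
  linear_combination
    (v.1 * w.1) * ((1 / k) ^ 2 * ((dr * ca - ρ * sa * dα) ^ 2 + (ρ * ca * dψ₁) ^ 2) * t2 +
        (1 / k) ^ 2 * ((dr * sa + ρ * ca * dα) ^ 2 + (ρ * sa * dψ₂) ^ 2) * t3 +
        (1 / k) ^ 2 * (dr ^ 2 + ρ ^ 2 * dα ^ 2) * t1) +
      (v.1 * w.2 + v.2 * w.1) * (k * (1 / k) ^ 2 * ρ ^ 2 * ca ^ 2 * dψ₁ * t2 +
        k * (1 / k) ^ 2 * ρ ^ 2 * sa ^ 2 * dψ₂ * t3 +
        ρ ^ 2 * (ca ^ 2 * dψ₁ + sa ^ 2 * dψ₂) * hkk) +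
      (v.2 * w.2) * (k ^ 2 * (1 / k) ^ 2 * ρ ^ 2 * ca ^ 2 * t2 +
        k ^ 2 * (1 / k) ^ 2 * ρ ^ 2 * sa ^ 2 * t3 + k ^ 2 * (1 / k) ^ 2 * ρ ^ 2 * t1 +
        ρ ^ 2 * hkk2)

theorem primitive_hasDerivAt {f : ℝ → ℝ} (hf : Continuous f) (x : ℝ) :
    HasDerivAt (fun x => ∫ t in (0 : ℝ)..x, f t) (f x) x :=
  intervalIntegral.integral_hasDerivAt_right (hf.intervalIntegrable _ _)
    hf.aestronglyMeasurable.stronglyMeasurableAtFilter hf.continuousAt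

theorem primitive_contDiff {f : ℝ → ℝ} (hf : ContDiff ℝ ∞ f) :
    ContDiff ℝ ∞ (fun x => ∫ t in (0 : ℝ)..x, f t) := by
  rw [contDiff_infty_iff_deriv]
  refine ⟨fun x => (primitive_hasDerivAt hf.continuous x).differentiableAt, ?_⟩
  have : deriv (fun x => ∫ t in (0 : ℝ)..x, f t) = f :=
    funext fun x => (primitive_hasDerivAt hf.continuous x).deriv
  rw [this]
  exact hf

theorem primitive_add_period {f : ℝ → ℝ} (hf : Continuous f) {L : ℝ}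
    (hper : ∀ x, f (x + L) = f x) (x : ℝ) :
    (∫ t in (0 : ℝ)..(x + L), f t) = (∫ t in (0 : ℝ)..x, f t) + ∫ t in (0 : ℝ)..L, f t := by
  have h1 : (∫ t in (0 : ℝ)..x, f t) + (∫ t in x..(x + L), f t) =
      ∫ t in (0 : ℝ)..(x + L), f t :=
    intervalIntegral.integral_add_adjacent_intervals (hf.intervalIntegrable _ _)
      (hf.intervalIntegrable _ _)
  have hp : Function.Periodic f L := hper
  have h2 : (∫ t in x..(x + L), f t) = ∫ t in (0 : ℝ)..(0 + L), f t :=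
    hp.intervalIntegral_add_eq x 0
  rw [← h1, h2, zero_add]

theorem deriv_add_period {f : ℝ → ℝ} {L : ℝ} (hper : ∀ x, f (x + L) = f x) (x : ℝ) :
    deriv f (x + L) = deriv f x := by
  rw [← deriv_comp_add_const]
  have : (fun x => f (x + L)) = f := funext hper
  rw [this]

end Vale.Agent.Lib.P205
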