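import Mathlib

namespace Vale.Agent.Lib.P205

open Real MeasureTheory
open scoped ContDiff

/-- Local form of the floor trick: within distance `δ` of `σ` the periodized function is
the translate of `a₀` by the period block of `σ`. -/
theorem h94_per_local (a₀ : ℝ → ℝ) (c δ ℓ : ℝ)
    (hδ : 0 < δ) (hℓ : 2 * δ < ℓ) (h0 : ∀ σ, σ ≤ δ → a₀ σ = c)
    (h1 : ∀ σ, ℓ - δ ≤ σ → a₀ σ = c) (σ t : ℝ) (ht : |t - σ| ≤ δ) :
    a₀ (t - ℓ * ⌊t / ℓ⌋) = a₀ (t - ℓ * ⌊σ / ℓ⌋) := by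
  have hℓpos : 0 < ℓ := by linarith
  obtain ⟨m, hm⟩ : ∃ m : ℤ, m = ⌊σ / ℓ⌋ := ⟨_, rfl⟩
  obtain ⟨k, hk⟩ : ∃ k : ℤ, k = ⌊t / ℓ⌋ := ⟨_, rfl⟩
  rw [← hm, ← hk]
  have hm1 : (m : ℝ) * ℓ ≤ σ := by
    have := Int.floor_le (σ / ℓ)
    rw [le_div_iff₀ hℓpos] at this
    rw [hm]; exact this
  have hm2 : σ < ((m : ℝ) + 1) * ℓ := by
    have := Int.lt_floor_add_one (σ / ℓ)
    rw [div_lt_iff₀ hℓpos] at this
    rw [hm]; exact this
  have hk1 : (k : ℝ) * ℓ ≤ t := by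
    have := Int.floor_le (t / ℓ)
    rw [le_div_iff₀ hℓpos] at this
    rw [hk]; exact this
  have hk2 : t < ((k : ℝ) + 1) * ℓ := by
    have := Int.lt_floor_add_one (t / ℓ)
    rw [div_lt_iff₀ hℓpos] at this
    rw [hk]; exact this
  have habs := abs_le.mp ht
  have hkm1 : m - 1 ≤ k := by
    by_contra hcon
    have h2 : k + 2 ≤ m := by omega
    have hr : ((k : ℝ) + 2) ≤ m := by exact_mod_cast h2
    have hp := mul_le_mul_of_nonneg_right hr hℓpos.le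
    nlinarith
  have hkm2 : k ≤ m + 1 := by
    by_contra hcon
    have h2 : m + 2 ≤ k := by omega
    have hr : ((m : ℝ) + 2) ≤ k := by exact_mod_cast h2
    have hp := mul_le_mul_of_nonneg_right hr hℓpos.le
    nlinarith
  rcases (by omega : k = m - 1 ∨ k = m ∨ k = m + 1) with h | h | h
  · have hkr : (k : ℝ) = m - 1 := by rw [h]; push_cast; ring
    have e1 : a₀ (t - ℓ * k) = c := by
      apply h1
      rw [hkr]
      nlinarith
    have e2 : a₀ (t - ℓ * m) = c := by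
      apply h0
      rw [hkr] at hk2
      nlinarith
    rw [e1, e2]
  · rw [h]
  · have hkr : (k : ℝ) = m + 1 := by rw [h]; push_cast; ring
    have e1 : a₀ (t - ℓ * k) = c := by
      apply h0
      rw [hkr]
      nlinarith
    have e2 : a₀ (t - ℓ * m) = c := by
      apply h1
      rw [hkr] at hk1
      nlinarith
    rw [e1, e2]

theorem exists_periodic_extension (a₀ : ℝ → ℝ) (ha₀ : ContDiff ℝ ∞ a₀) (c δ ℓ : ℝ)
    (hδ : 0 < δ) (hℓ : 2 * δ < ℓ) (h0 : ∀ σ, σ ≤ δ → a₀ σ = c)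
    (h1 : ∀ σ, ℓ - δ ≤ σ → a₀ σ = c) :
    ∃ a : ℝ → ℝ, ContDiff ℝ ∞ a ∧ (∀ σ, a (σ + ℓ) = a σ) ∧
      (∀ σ ∈ Set.Icc (0 : ℝ) ℓ, a σ = a₀ σ) ∧
      (∀ σ ∈ Set.Icc (0 : ℝ) ℓ, deriv a σ = deriv a₀ σ) ∧
      (∀ σ, ∃ σ₀ ∈ Set.Icc (0 : ℝ) ℓ, a σ = a₀ σ₀ ∧ deriv a σ = deriv a₀ σ₀) := by
  have hℓpos : 0 < ℓ := by linarith
  obtain ⟨a, ha⟩ : ∃ a : ℝ → ℝ, a = fun σ => a₀ (σ - ℓ * ⌊σ / ℓ⌋) := ⟨_, rfl⟩
  have hloc : ∀ σ : ℝ, a =ᶠ[nhds σ] fun t => a₀ (t - ℓ * ⌊σ / ℓ⌋) := by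
    intro σ
    have hball : Metric.ball σ δ ∈ nhds σ := Metric.ball_mem_nhds σ hδ
    filter_upwards [hball] with t ht
    have hd : |t - σ| ≤ δ := by
      have := Metric.mem_ball.mp ht
      rw [Real.dist_eq] at this
      exact this.le
    rw [ha]
    exact h94_per_local a₀ c δ ℓ hδ hℓ h0 h1 σ t hd
  have hloc0 : ∀ σ ∈ Set.Icc (0 : ℝ) ℓ, a =ᶠ[nhds σ] a₀ := by
    intro σ hσ
    rcases hσ.2.lt_or_eq with hlt | heq
    · have hfl : ⌊σ / ℓ⌋ = 0 := by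
        rw [Int.floor_eq_iff]
        constructor
        · simpa using div_nonneg hσ.1 hℓpos.le
        · simpa using (div_lt_one hℓpos).mpr hlt
      have h2 := hloc σ
      rw [hfl] at h2
      simpa using h2
    · have hfl : ⌊σ / ℓ⌋ = 1 := by
        rw [heq, div_self hℓpos.ne']; simp
      have h2 := hloc σ
      rw [hfl] at h2
      have hball : Metric.ball σ δ ∈ nhds σ := Metric.ball_mem_nhds σ hδ
      filter_upwards [h2, hball] with t ht htb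
      rw [ht]
      have hd := Metric.mem_ball.mp htb
      rw [Real.dist_eq] at hd
      have habs := abs_lt.mp hd
      rw [h0 (t - ℓ * ((1 : ℤ) : ℝ)) (by push_cast; linarith), h1 t (by linarith)]
  refine ⟨a, ?_, ?_, ?_, ?_, ?_⟩
  · rw [contDiff_iff_contDiffAt]
    intro σ
    have hsm : ContDiff ℝ ∞ (fun t : ℝ => a₀ (t - ℓ * ⌊σ / ℓ⌋)) :=
      ha₀.comp (contDiff_id.sub contDiff_const)
    exact hsm.contDiffAt.congr_of_eventuallyEq (hloc σ)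
  · intro σ
    have hfl : ⌊(σ + ℓ) / ℓ⌋ = ⌊σ / ℓ⌋ + 1 := by
      rw [add_div, div_self hℓpos.ne', Int.floor_add_one]
    rw [ha]
    simp only
    rw [hfl]
    congr 1
    push_cast
    ring
  · intro σ hσ
    exact (hloc0 σ hσ).eq_of_nhds
  · intro σ hσ
    exact (hloc0 σ hσ).deriv_eq
  · intro σ
    refine ⟨σ - ℓ * ⌊σ / ℓ⌋, ⟨?_, ?_⟩, ?_, ?_⟩
    · have := Int.floor_le (σ / ℓ)
      rw [le_div_iff₀ hℓpos] at this
      linarith
    · have := Int.lt_floor_add_one (σ / ℓ)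
      rw [div_lt_iff₀ hℓpos] at this
      nlinarith
    · rw [ha]
    · rw [(hloc σ).deriv_eq]
      exact deriv_comp_sub_const a₀ (ℓ * ⌊σ / ℓ⌋) σ

end Vale.Agent.Lib.P205
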