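import Mathlib

namespace Vale.Agent.Lib.P205

open Real MeasureTheory
open scoped ContDiff

/-- The smooth trapezoid: it rises from `0` to `1` on `[0, w]`, stays at `1` on the plateau
`[w, w + s]` and falls back to `0` on `[w + s, 2 * w + s]`. -/
noncomputable def trap (w s : ℝ) (σ : ℝ) : ℝ :=
  Real.smoothTransition (σ / w) * (1 - Real.smoothTransition ((σ - w - s) / w))

theorem trap_contDiff (w s : ℝ) : ContDiff ℝ ∞ (trap w s) := by
  show ContDiff ℝ ∞ (fun σ : ℝ =>
    Real.smoothTransition (σ / w) * (1 - Real.smoothTransition ((σ - w - s) / w)))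
  have h1 : ContDiff ℝ ∞ (fun σ : ℝ => σ / w) := contDiff_id.div_const w
  have h2 : ContDiff ℝ ∞ (fun σ : ℝ => (σ - w - s) / w) :=
    ((contDiff_id.sub contDiff_const).sub contDiff_const).div_const w
  have hψ : ContDiff ℝ ∞ Real.smoothTransition := Real.smoothTransition.contDiff
  exact (hψ.comp h1).mul (contDiff_const.sub (hψ.comp h2))

theorem trap_nonneg (w s σ : ℝ) : 0 ≤ trap w s σ :=
  mul_nonneg (Real.smoothTransition.nonneg _)
    (sub_nonneg.2 (Real.smoothTransition.le_one _))

theorem trap_le_one (w s σ : ℝ) : trap w s σ ≤ 1 := by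
  have h1 := Real.smoothTransition.nonneg (σ / w)
  have h2 := Real.smoothTransition.le_one (σ / w)
  have h3 := Real.smoothTransition.nonneg ((σ - w - s) / w)
  have h4 := Real.smoothTransition.le_one ((σ - w - s) / w)
  unfold trap
  nlinarith [mul_nonneg h1 h3]

theorem trap_eq_zero_of_nonpos {w : ℝ} (hw : 0 < w) (s : ℝ) {σ : ℝ} (hσ : σ ≤ 0) :
    trap w s σ = 0 := by
  unfold trap
  rw [Real.smoothTransition.zero_of_nonpos (div_nonpos_of_nonpos_of_nonneg hσ hw.le), zero_mul]

theorem trap_eq_zero_of_ge {w : ℝ} (hw : 0 < w) (s : ℝ) {σ : ℝ} (hσ : 2 * w + s ≤ σ) :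
    trap w s σ = 0 := by
  unfold trap
  have h : 1 ≤ (σ - w - s) / w := (one_le_div hw).2 (by linarith)
  rw [Real.smoothTransition.one_of_one_le h, sub_self, mul_zero]

theorem trap_continuous (w s : ℝ) : Continuous (trap w s) := (trap_contDiff w s).continuous

theorem trap_deriv_continuous (w s : ℝ) : Continuous (deriv (trap w s)) :=
  (trap_contDiff w s).continuous_deriv (by simp)

/-- The derivative of the transition function is bounded on the whole line. -/
theorem trap_aux_deriv_transition_bound :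
    ∃ M0 : ℝ, 0 ≤ M0 ∧ ∀ x : ℝ, |deriv Real.smoothTransition x| ≤ M0 := by
  have hc : Continuous (deriv Real.smoothTransition) :=
    (Real.smoothTransition.contDiff (n := ⊤)).continuous_deriv (by simp)
  obtain ⟨M0, hM0⟩ := isCompact_Icc.exists_bound_of_continuousOn
    (s := Set.Icc (0 : ℝ) 1) hc.continuousOn
  refine ⟨max M0 0, le_max_right _ _, fun x => ?_⟩
  by_cases hx : x ∈ Set.Icc (0 : ℝ) 1
  · have h := hM0 x hx
    rw [Real.norm_eq_abs] at h
    exact h.trans (le_max_left _ _)
  · have h0 : deriv Real.smoothTransition x = 0 := by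
      rw [Set.mem_Icc, not_and_or, not_le, not_le] at hx
      rcases hx with hx | hx
      · have he : Real.smoothTransition =ᶠ[nhds x] fun _ => (0 : ℝ) := by
          filter_upwards [Iio_mem_nhds hx] with y hy
          exact Real.smoothTransition.zero_of_nonpos (le_of_lt hy)
        rw [he.deriv_eq]
        exact deriv_const x 0
      · have he : Real.smoothTransition =ᶠ[nhds x] fun _ => (1 : ℝ) := by
          filter_upwards [Ioi_mem_nhds hx] with y hy
          exact Real.smoothTransition.one_of_one_le (le_of_lt hy)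
        rw [he.deriv_eq]
        exact deriv_const x 1
    rw [h0, abs_zero]
    exact le_max_right _ _

theorem trap_hasDerivAt (w s σ : ℝ) :
    HasDerivAt (trap w s)
      (deriv Real.smoothTransition (σ / w) * (1 / w) *
          (1 - Real.smoothTransition ((σ - w - s) / w)) +
        Real.smoothTransition (σ / w) *
          (-(deriv Real.smoothTransition ((σ - w - s) / w) * (1 / w)))) σ := by
  have hd : ∀ y : ℝ, HasDerivAt Real.smoothTransition (deriv Real.smoothTransition y) y :=
    fun y => ((Real.smoothTransition.contDiff (n := ⊤)).differentiable (by simp)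
      y).hasDerivAt
  have h1 : HasDerivAt (fun σ : ℝ => σ / w) (1 / w) σ := (hasDerivAt_id σ).div_const w
  have h2 : HasDerivAt (fun σ : ℝ => (σ - w - s) / w) (1 / w) σ :=
    (((hasDerivAt_id σ).sub_const w).sub_const s).div_const w
  have h3 : HasDerivAt (fun σ : ℝ => Real.smoothTransition (σ / w))
      (deriv Real.smoothTransition (σ / w) * (1 / w)) σ :=
    HasDerivAt.comp (h₂ := Real.smoothTransition) (h := fun σ : ℝ => σ / w) σ (hd (σ / w)) h1
  have h4 : HasDerivAt (fun σ : ℝ => Real.smoothTransition ((σ - w - s) / w))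
      (deriv Real.smoothTransition ((σ - w - s) / w) * (1 / w)) σ :=
    HasDerivAt.comp (h₂ := Real.smoothTransition) (h := fun σ : ℝ => (σ - w - s) / w) σ
      (hd ((σ - w - s) / w)) h2
  exact h3.mul (h4.const_sub 1)

theorem exists_trap_deriv_bound :
    ∃ M : ℝ, 0 < M ∧ ∀ w : ℝ, 0 < w → ∀ s σ : ℝ, |deriv (trap w s) σ| ≤ M / w := by
  obtain ⟨M0, hM0, hb⟩ := trap_aux_deriv_transition_bound
  refine ⟨2 * M0 + 1, by linarith, fun w hw s σ => ?_⟩
  rw [(trap_hasDerivAt w s σ).deriv]
  have hw1 : 0 < 1 / w := one_div_pos.2 hw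
  have a1 := hb (σ / w)
  have a2 := hb ((σ - w - s) / w)
  have b1 := Real.smoothTransition.nonneg (σ / w)
  have b2 := Real.smoothTransition.le_one (σ / w)
  have b3 := Real.smoothTransition.nonneg ((σ - w - s) / w)
  have b4 := Real.smoothTransition.le_one ((σ - w - s) / w)
  have t1 : |deriv Real.smoothTransition (σ / w) * (1 / w) *
      (1 - Real.smoothTransition ((σ - w - s) / w))| ≤ M0 * (1 / w) := by
    rw [abs_mul, abs_mul, abs_of_pos hw1, abs_of_nonneg (by linarith :
      (0 : ℝ) ≤ 1 - Real.smoothTransition ((σ - w - s) / w))]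
    calc |deriv Real.smoothTransition (σ / w)| * (1 / w) *
          (1 - Real.smoothTransition ((σ - w - s) / w))
        ≤ |deriv Real.smoothTransition (σ / w)| * (1 / w) * 1 :=
          mul_le_mul_of_nonneg_left (by linarith) (mul_nonneg (abs_nonneg _) hw1.le)
      _ = |deriv Real.smoothTransition (σ / w)| * (1 / w) := mul_one _
      _ ≤ M0 * (1 / w) := mul_le_mul_of_nonneg_right a1 hw1.le
  have t2 : |Real.smoothTransition (σ / w) *
      (-(deriv Real.smoothTransition ((σ - w - s) / w) * (1 / w)))| ≤ M0 * (1 / w) := by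
    rw [abs_mul, abs_neg, abs_mul, abs_of_pos hw1, abs_of_nonneg b1]
    calc Real.smoothTransition (σ / w) *
          (|deriv Real.smoothTransition ((σ - w - s) / w)| * (1 / w))
        ≤ 1 * (|deriv Real.smoothTransition ((σ - w - s) / w)| * (1 / w)) :=
          mul_le_mul_of_nonneg_right b2 (mul_nonneg (abs_nonneg _) hw1.le)
      _ = |deriv Real.smoothTransition ((σ - w - s) / w)| * (1 / w) := one_mul _
      _ ≤ M0 * (1 / w) := mul_le_mul_of_nonneg_right a2 hw1.le
  calc |deriv Real.smoothTransition (σ / w) * (1 / w) *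
          (1 - Real.smoothTransition ((σ - w - s) / w)) +
        Real.smoothTransition (σ / w) *
          (-(deriv Real.smoothTransition ((σ - w - s) / w) * (1 / w)))|
      ≤ M0 * (1 / w) + M0 * (1 / w) := (abs_add_le _ _).trans (add_le_add t1 t2)
    _ ≤ (2 * M0 + 1) / w := by
        rw [div_eq_mul_one_div (2 * M0 + 1) w]
        nlinarith

/-- Interval integrals of functions agreeing on the open interval coincide. -/
theorem trap_aux_integral_congr_Ioo {f h : ℝ → ℝ} {a b : ℝ} (hab : a ≤ b)
    (hfh : ∀ x ∈ Set.Ioo a b, f x = h x) :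
    ∫ x in a..b, f x = ∫ x in a..b, h x := by
  rw [intervalIntegral.integral_of_le hab, intervalIntegral.integral_of_le hab,
    MeasureTheory.integral_Ioc_eq_integral_Ioo, MeasureTheory.integral_Ioc_eq_integral_Ioo]
  exact MeasureTheory.setIntegral_congr_fun measurableSet_Ioo (fun x hx => hfh x hx)

/-- Functions agreeing on an open set have the same derivative at its points. -/
theorem trap_aux_deriv_eq {f h : ℝ → ℝ} {U : Set ℝ} (hU : IsOpen U)
    (hfh : ∀ x ∈ U, f x = h x) {σ : ℝ} (hσ : σ ∈ U) : deriv f σ = deriv h σ :=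
  Filter.EventuallyEq.deriv_eq (Filter.eventually_of_mem (hU.mem_nhds hσ) hfh)

theorem integral_trap (g : ℝ → ℝ → ℝ)
    (hg : ContinuousOn (fun p : ℝ × ℝ => g p.1 p.2) (Set.Icc (0 : ℝ) 1 ×ˢ Set.univ))
    {w : ℝ} (hw : 0 < w) {s : ℝ} (hs : 0 ≤ s) {o₁ o₂ : ℝ} (h₁ : o₁ ≤ 0) (h₂ : 2 * w + s ≤ o₂) :
    ∫ σ in o₁..o₂, g (trap w s σ) (deriv (trap w s) σ) =
      (o₂ - o₁ - 2 * w - s) * g 0 0 + s * g 1 0 +
        ∫ σ in (0 : ℝ)..(2 * w), g (trap w 0 σ) (deriv (trap w 0) σ) := by
  -- continuity and integrability of the integrands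
  have hF : ∀ s' : ℝ, Continuous (fun σ => g (trap w s' σ) (deriv (trap w s') σ)) := by
    intro s'
    have hΦ : Continuous (fun σ => (trap w s' σ, deriv (trap w s') σ)) :=
      (trap_continuous w s').prodMk (trap_deriv_continuous w s')
    exact hg.comp_continuous hΦ
      (fun σ => ⟨⟨trap_nonneg w s' σ, trap_le_one w s' σ⟩, Set.mem_univ _⟩)
  have hFi : ∀ (s' a b : ℝ), IntervalIntegrable
      (fun σ => g (trap w s' σ) (deriv (trap w s') σ)) volume a b :=
    fun s' a b => (hF s').intervalIntegrable a b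
  -- pointwise description of the trapezoid on five open regions
  have z1 : ∀ x ∈ Set.Iio (0 : ℝ), trap w s x = (fun _ : ℝ => (0 : ℝ)) x :=
    fun x hx => trap_eq_zero_of_nonpos hw s (le_of_lt hx)
  have z2 : ∀ x ∈ Set.Iio w, trap w s x = trap w 0 x := by
    intro x hx
    have hx' : x < w := hx
    unfold trap
    rw [Real.smoothTransition.zero_of_nonpos
        (div_nonpos_of_nonpos_of_nonneg (by linarith : x - w - s ≤ 0) hw.le),
      Real.smoothTransition.zero_of_nonpos
        (div_nonpos_of_nonpos_of_nonneg (by linarith : x - w - 0 ≤ 0) hw.le)]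
  have z3 : ∀ x ∈ Set.Ioo w (w + s), trap w s x = (fun _ : ℝ => (1 : ℝ)) x := by
    intro x hx
    have hx1 : w < x := hx.1
    have hx2 : x < w + s := hx.2
    unfold trap
    rw [Real.smoothTransition.one_of_one_le ((one_le_div hw).2 hx1.le),
      Real.smoothTransition.zero_of_nonpos
        (div_nonpos_of_nonpos_of_nonneg (by linarith : x - w - s ≤ 0) hw.le)]
    norm_num
  have z4 : ∀ x ∈ Set.Ioi (w + s), trap w s x = (fun y : ℝ => trap w 0 (y - s)) x := by
    intro x hx
    have hx' : w + s < x := hx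
    show trap w s x = trap w 0 (x - s)
    unfold trap
    rw [Real.smoothTransition.one_of_one_le ((one_le_div hw).2 (by linarith : w ≤ x)),
      Real.smoothTransition.one_of_one_le ((one_le_div hw).2 (by linarith : w ≤ x - s)),
      show (x - s - w - 0) / w = (x - w - s) / w by ring]
  have z5 : ∀ x ∈ Set.Ioi (2 * w + s), trap w s x = (fun _ : ℝ => (0 : ℝ)) x :=
    fun x hx => trap_eq_zero_of_ge hw s (le_of_lt hx)
  -- the five pieces
  have p1 : ∫ σ in o₁..0, g (trap w s σ) (deriv (trap w s) σ) = (0 - o₁) * g 0 0 := by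
    rw [trap_aux_integral_congr_Ioo h₁ (h := fun _ => g 0 0) (fun σ hσ => by
      have hσ' : σ ∈ Set.Iio (0 : ℝ) := hσ.2
      rw [z1 σ hσ', trap_aux_deriv_eq isOpen_Iio z1 hσ', deriv_const])]
    rw [intervalIntegral.integral_const, smul_eq_mul]
  have p2 : ∫ σ in (0 : ℝ)..w, g (trap w s σ) (deriv (trap w s) σ) =
      ∫ σ in (0 : ℝ)..w, g (trap w 0 σ) (deriv (trap w 0) σ) :=
    trap_aux_integral_congr_Ioo hw.le (fun σ hσ => by
      have hσ' : σ ∈ Set.Iio w := hσ.2
      rw [z2 σ hσ', trap_aux_deriv_eq isOpen_Iio z2 hσ'])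
  have p3 : ∫ σ in w..(w + s), g (trap w s σ) (deriv (trap w s) σ) = s * g 1 0 := by
    rw [trap_aux_integral_congr_Ioo (by linarith : w ≤ w + s) (h := fun _ => g 1 0)
      (fun σ hσ => by
        rw [z3 σ hσ, trap_aux_deriv_eq isOpen_Ioo z3 hσ, deriv_const])]
    rw [intervalIntegral.integral_const, smul_eq_mul, add_sub_cancel_left]
  have p4 : ∫ σ in (w + s)..(2 * w + s), g (trap w s σ) (deriv (trap w s) σ) =
      ∫ σ in w..(2 * w), g (trap w 0 σ) (deriv (trap w 0) σ) := by
    rw [trap_aux_integral_congr_Ioo (by linarith : w + s ≤ 2 * w + s)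
      (h := fun σ => (fun τ => g (trap w 0 τ) (deriv (trap w 0) τ)) (σ - s))
      (fun σ hσ => by
        have hσ' : σ ∈ Set.Ioi (w + s) := hσ.1
        rw [z4 σ hσ', trap_aux_deriv_eq isOpen_Ioi z4 hσ', deriv_comp_sub_const])]
    rw [intervalIntegral.integral_comp_sub_right
      (fun τ => g (trap w 0 τ) (deriv (trap w 0) τ)) s, add_sub_cancel_right,
      add_sub_cancel_right]
  have p5 : ∫ σ in (2 * w + s)..o₂, g (trap w s σ) (deriv (trap w s) σ) =
      (o₂ - (2 * w + s)) * g 0 0 := by
    rw [trap_aux_integral_congr_Ioo h₂ (h := fun _ => g 0 0) (fun σ hσ => by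
      have hσ' : σ ∈ Set.Ioi (2 * w + s) := hσ.1
      rw [z5 σ hσ', trap_aux_deriv_eq isOpen_Ioi z5 hσ', deriv_const])]
    rw [intervalIntegral.integral_const, smul_eq_mul]
  -- gluing
  have q1 := intervalIntegral.integral_add_adjacent_intervals (hFi s o₁ 0) (hFi s 0 w)
  have q2 := intervalIntegral.integral_add_adjacent_intervals (hFi s o₁ w) (hFi s w (w + s))
  have q3 := intervalIntegral.integral_add_adjacent_intervals (hFi s o₁ (w + s))
    (hFi s (w + s) (2 * w + s))
  have q4 := intervalIntegral.integral_add_adjacent_intervals (hFi s o₁ (2 * w + s))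
    (hFi s (2 * w + s) o₂)
  have q5 := intervalIntegral.integral_add_adjacent_intervals (hFi 0 0 w) (hFi 0 w (2 * w))
  rw [← q4, ← q3, ← q2, ← q1, p1, p2, p3, p4, p5, ← q5]
  ring

end Vale.Agent.Lib.P205
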