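import Mathlib
import Vale.Agent.Lib.P205.Twist.Trap
import Vale.Agent.Lib.P205.Twist.Periodize

namespace Vale.Agent.Lib.P205

open Real MeasureTheory
open scoped ContDiff

/-- The amplitude of the two bumps of the profile. -/
noncomputable def profD : ℝ := Real.arctan 2 - π / 4

theorem profD_pos : 0 < profD := by
  have h : Real.arctan 1 < Real.arctan 2 := Real.arctan_strictMono (by norm_num)
  rw [Real.arctan_one] at h
  unfold profD
  linarith

theorem profD_lt : profD < π / 4 := by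
  have h := Real.arctan_lt_pi_div_two 2
  unfold profD
  linarith

theorem profD_tan_plus : Real.sin (π / 4 + profD) / Real.cos (π / 4 + profD) = 2 := by
  have h : π / 4 + profD = Real.arctan 2 := by unfold profD; ring
  rw [h, ← Real.tan_eq_sin_div_cos, Real.tan_arctan]

theorem profD_tan_minus : Real.sin (π / 4 - profD) / Real.cos (π / 4 - profD) = 1 / 2 := by
  have h : π / 4 - profD = π / 2 - Real.arctan 2 := by unfold profD; ring
  rw [h, Real.sin_pi_div_two_sub, Real.cos_pi_div_two_sub, ← inv_div,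
    ← Real.tan_eq_sin_div_cos, Real.tan_arctan]
  norm_num

theorem profD_tan_zero : Real.sin (π / 4) / Real.cos (π / 4) = 1 := by
  rw [← Real.tan_eq_sin_div_cos, Real.tan_pi_div_four]

theorem profD_cot_plus : Real.cos (π / 4 + profD) / Real.sin (π / 4 + profD) = 1 / 2 := by
  rw [← inv_div, profD_tan_plus]
  norm_num

theorem profD_cot_minus : Real.cos (π / 4 - profD) / Real.sin (π / 4 - profD) = 2 := by
  rw [← inv_div, profD_tan_minus]
  norm_num

theorem profD_cot_zero : Real.cos (π / 4) / Real.sin (π / 4) = 1 := by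
  rw [← inv_div, profD_tan_zero]
  norm_num

theorem trap_deriv_eq_zero_of_neg {w : ℝ} (hw : 0 < w) (s : ℝ) {x : ℝ} (hx : x < 0) :
    deriv (trap w s) x = 0 := by
  have z : ∀ y ∈ Set.Iio (0 : ℝ), trap w s y = (fun _ : ℝ => (0 : ℝ)) y :=
    fun y hy => trap_eq_zero_of_nonpos hw s (le_of_lt hy)
  rw [trap_aux_deriv_eq isOpen_Iio z (Set.mem_Iio.2 hx), deriv_const]

theorem trap_deriv_eq_zero_of_gt {w : ℝ} (hw : 0 < w) (s : ℝ) {x : ℝ} (hx : 2 * w + s < x) :
    deriv (trap w s) x = 0 := by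
  have z : ∀ y ∈ Set.Ioi (2 * w + s), trap w s y = (fun _ : ℝ => (0 : ℝ)) y :=
    fun y hy => trap_eq_zero_of_ge hw s (le_of_lt hy)
  rw [trap_aux_deriv_eq isOpen_Ioi z (Set.mem_Ioi.2 hx), deriv_const]

/-- The integral of a function of a shifted trapezoid bump and of its derivative. -/
theorem bump_integral (φ : ℝ → ℝ) (c₀ e : ℝ)
    (hφ : ∀ t ∈ Set.Icc (0 : ℝ) 1, ContinuousAt φ (c₀ + e * t))
    {w : ℝ} (hw : 0 < w) {s : ℝ} (hs : 0 ≤ s) (τ : ℝ) {A B : ℝ}
    (hA : A - τ ≤ 0) (hB : 2 * w + s ≤ B - τ) :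
    ∫ σ in A..B, φ (c₀ + e * trap w s (σ - τ)) *
        Real.sqrt (1 - (e * deriv (trap w s) (σ - τ)) ^ 2) =
      (B - A - 2 * w - s) * φ c₀ + s * φ (c₀ + e) +
        ∫ σ in (0 : ℝ)..(2 * w), φ (c₀ + e * trap w 0 σ) *
          Real.sqrt (1 - (e * deriv (trap w 0) σ) ^ 2) := by
  have hg : ContinuousOn
      (fun p : ℝ × ℝ => φ (c₀ + e * p.1) * Real.sqrt (1 - (e * p.2) ^ 2))
      (Set.Icc (0 : ℝ) 1 ×ˢ Set.univ) := by
    intro p hp
    have h1 : ContinuousAt φ (c₀ + e * p.1) := hφ p.1 hp.1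
    have h2 : ContinuousAt (fun p : ℝ × ℝ => c₀ + e * p.1) p :=
      (continuous_const.add (continuous_const.mul continuous_fst)).continuousAt
    have h3 : ContinuousAt (fun p : ℝ × ℝ => φ (c₀ + e * p.1)) p :=
      ContinuousAt.comp (g := φ) (f := fun p : ℝ × ℝ => c₀ + e * p.1) h1 h2
    have h4 : ContinuousAt (fun p : ℝ × ℝ => Real.sqrt (1 - (e * p.2) ^ 2)) p :=
      (Real.continuous_sqrt.comp
        (continuous_const.sub ((continuous_const.mul continuous_snd).pow 2))).continuousAt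
    exact (h3.mul h4).continuousWithinAt
  have key := integral_trap (fun t t' => φ (c₀ + e * t) * Real.sqrt (1 - (e * t') ^ 2))
    hg hw hs hA hB
  have hshift := intervalIntegral.integral_comp_sub_right (a := A) (b := B)
    (fun σ => φ (c₀ + e * trap w s σ) * Real.sqrt (1 - (e * deriv (trap w s) σ) ^ 2)) τ
  have e0 : Real.sqrt (1 - (e * 0) ^ 2) = 1 := by norm_num
  rw [hshift, key, e0, mul_zero, add_zero, mul_one, mul_one, mul_one]
  ring

/-- The contribution of one bump without plateau. -/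
noncomputable def bumpK (φ : ℝ → ℝ) (w e : ℝ) : ℝ :=
  ∫ σ in (0 : ℝ)..(2 * w), φ (π / 4 + e * trap w 0 σ) *
    Real.sqrt (1 - (e * deriv (trap w 0) σ) ^ 2)

/-- The two-bump profile on the line. -/
noncomputable def prof (w m s s' : ℝ) (σ : ℝ) : ℝ :=
  π / 4 + profD * trap w s (σ - 1) - profD * trap w s' (σ - m - 1)

theorem prof_contDiff (w m s s' : ℝ) : ContDiff ℝ ∞ (prof w m s s') := by
  show ContDiff ℝ ∞ (fun σ : ℝ =>
    π / 4 + profD * trap w s (σ - 1) - profD * trap w s' (σ - m - 1))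
  have h1 : ContDiff ℝ ∞ (fun σ : ℝ => trap w s (σ - 1)) :=
    (trap_contDiff w s).comp (contDiff_id.sub contDiff_const)
  have h2 : ContDiff ℝ ∞ (fun σ : ℝ => trap w s' (σ - m - 1)) :=
    (trap_contDiff w s').comp ((contDiff_id.sub contDiff_const).sub contDiff_const)
  exact (contDiff_const.add (contDiff_const.mul h1)).sub (contDiff_const.mul h2)

theorem prof_mem (w m s s' σ : ℝ) :
    π / 4 - profD ≤ prof w m s s' σ ∧ prof w m s s' σ ≤ π / 4 + profD := by
  have hd := profD_pos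
  have a1 := trap_nonneg w s (σ - 1)
  have a2 := trap_le_one w s (σ - 1)
  have b1 := trap_nonneg w s' (σ - m - 1)
  have b2 := trap_le_one w s' (σ - m - 1)
  unfold prof
  constructor <;> nlinarith

theorem prof_hasDerivAt (w m s s' σ : ℝ) :
    HasDerivAt (prof w m s s')
      (profD * deriv (trap w s) (σ - 1) - profD * deriv (trap w s') (σ - m - 1)) σ := by
  have h1 : HasDerivAt (fun σ : ℝ => trap w s (σ - 1)) (deriv (trap w s) (σ - 1)) σ :=
    HasDerivAt.comp_sub_const σ 1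
      (((trap_contDiff w s).differentiable (by simp)) (σ - 1)).hasDerivAt
  have h2 : HasDerivAt (fun σ : ℝ => trap w s' (σ - (m + 1)))
      (deriv (trap w s') (σ - (m + 1))) σ :=
    HasDerivAt.comp_sub_const σ (m + 1)
      (((trap_contDiff w s').differentiable (by simp)) (σ - (m + 1))).hasDerivAt
  have h3 : HasDerivAt (fun σ : ℝ => trap w s' (σ - m - 1))
      (deriv (trap w s') (σ - m - 1)) σ := by
    have e : ∀ x : ℝ, x - m - 1 = x - (m + 1) := fun x => by ring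
    simp only [e]
    exact h2
  exact ((h1.const_mul profD).const_add (π / 4)).sub (h3.const_mul profD)

theorem prof_deriv_bound {M : ℝ}
    (hM : ∀ w : ℝ, 0 < w → ∀ s σ : ℝ, |deriv (trap w s) σ| ≤ M / w)
    {w : ℝ} (hw : 0 < w) (hwM : 4 * profD * M ≤ w) (m s s' σ : ℝ) :
    |deriv (prof w m s s') σ| ≤ 1 / 2 := by
  rw [(prof_hasDerivAt w m s s' σ).deriv]
  have hd := profD_pos
  have h1 := hM w hw s (σ - 1)
  have h2 := hM w hw s' (σ - m - 1)
  have hMw : profD * (M / w) ≤ 1 / 4 := by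
    rw [← mul_div_assoc, div_le_iff₀ hw]
    linarith
  have t1 : |profD * deriv (trap w s) (σ - 1)| ≤ profD * (M / w) := by
    rw [abs_mul, abs_of_pos hd]
    exact mul_le_mul_of_nonneg_left h1 hd.le
  have t2 : |profD * deriv (trap w s') (σ - m - 1)| ≤ profD * (M / w) := by
    rw [abs_mul, abs_of_pos hd]
    exact mul_le_mul_of_nonneg_left h2 hd.le
  have t3 := abs_sub (profD * deriv (trap w s) (σ - 1))
    (profD * deriv (trap w s') (σ - m - 1))
  linarith

theorem prof_eq_of_le {w : ℝ} (hw : 0 < w) {m : ℝ} (hm : 0 ≤ m) (s s' : ℝ) {σ : ℝ}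
    (hσ : σ ≤ 1) : prof w m s s' σ = π / 4 := by
  unfold prof
  rw [trap_eq_zero_of_nonpos hw s (by linarith), trap_eq_zero_of_nonpos hw s' (by linarith)]
  ring

theorem prof_eq_of_ge {w : ℝ} (hw : 0 < w) {m s s' σ : ℝ} (h1 : 2 * w + s ≤ σ - 1)
    (h2 : 2 * w + s' ≤ σ - m - 1) : prof w m s s' σ = π / 4 := by
  unfold prof
  rw [trap_eq_zero_of_ge hw s h1, trap_eq_zero_of_ge hw s' h2]
  ring

/-- The integral over a period of a function of the profile and its derivative. -/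
theorem prof_integral (φ : ℝ → ℝ)
    (hφ : ∀ x, π / 4 - profD ≤ x → x ≤ π / 4 + profD → ContinuousAt φ x)
    {w : ℝ} (hw : 0 < w) {s s' : ℝ} (hs : 0 ≤ s) (hs4 : s ≤ 4 * π) (hs' : 0 ≤ s')
    (hs4' : s' ≤ 4 * π) {m ℓ : ℝ} (hm : m = 2 * w + 4 * π + 2) (hℓ : 2 * m ≤ ℓ) :
    ∫ σ in (0 : ℝ)..ℓ, φ (prof w m s s' σ) *
        Real.sqrt (1 - deriv (prof w m s s') σ ^ 2) =
      (ℓ - 4 * w - s - s') * φ (π / 4) + s * φ (π / 4 + profD) + s' * φ (π / 4 - profD) +
        (bumpK φ w profD + bumpK φ w (-profD)) := by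
  have hd := profD_pos
  have hπ := Real.pi_pos
  have hm0 : 0 ≤ m := by rw [hm]; linarith
  -- continuity of the integrand
  have hcont : Continuous (fun σ => φ (prof w m s s' σ) *
      Real.sqrt (1 - deriv (prof w m s s') σ ^ 2)) := by
    have c1 : Continuous (fun σ => φ (prof w m s s' σ)) :=
      continuous_iff_continuousAt.2 (fun σ =>
        ContinuousAt.comp (g := φ) (f := prof w m s s')
          (hφ _ (prof_mem w m s s' σ).1 (prof_mem w m s s' σ).2)
          (prof_contDiff w m s s').continuous.continuousAt)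
    have c2 : Continuous (fun σ => Real.sqrt (1 - deriv (prof w m s s') σ ^ 2)) :=
      Real.continuous_sqrt.comp (continuous_const.sub
        (((prof_contDiff w m s s').continuous_deriv (by simp)).pow 2))
    exact c1.mul c2
  have hint : ∀ a b : ℝ, IntervalIntegrable (fun σ => φ (prof w m s s' σ) *
      Real.sqrt (1 - deriv (prof w m s s') σ ^ 2)) volume a b :=
    fun a b => hcont.intervalIntegrable a b
  -- the first bump
  have hφ1 : ∀ t ∈ Set.Icc (0 : ℝ) 1, ContinuousAt φ (π / 4 + profD * t) := by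
    intro t ht
    have ht0 : 0 ≤ t := ht.1
    have ht1 : t ≤ 1 := ht.2
    exact hφ _ (by nlinarith) (by nlinarith)
  have hφ2 : ∀ t ∈ Set.Icc (0 : ℝ) 1, ContinuousAt φ (π / 4 + -profD * t) := by
    intro t ht
    have ht0 : 0 ≤ t := ht.1
    have ht1 : t ≤ 1 := ht.2
    exact hφ _ (by nlinarith) (by nlinarith)
  have p1 : ∫ σ in (0 : ℝ)..m, φ (prof w m s s' σ) *
      Real.sqrt (1 - deriv (prof w m s s') σ ^ 2) =
      (m - 0 - 2 * w - s) * φ (π / 4) + s * φ (π / 4 + profD) + bumpK φ w profD := by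
    rw [bumpK, ← bump_integral φ (π / 4) profD hφ1 hw hs 1 (A := 0) (B := m) (by norm_num)
      (by rw [hm]; linarith)]
    apply intervalIntegral.integral_congr
    intro σ hσ
    rw [Set.uIcc_of_le hm0] at hσ
    have hσm : σ ≤ m := hσ.2
    have z1 : trap w s' (σ - m - 1) = 0 := trap_eq_zero_of_nonpos hw s' (by linarith)
    have z2 : deriv (trap w s') (σ - m - 1) = 0 :=
      trap_deriv_eq_zero_of_neg hw s' (by linarith)
    show φ (prof w m s s' σ) * Real.sqrt (1 - deriv (prof w m s s') σ ^ 2) =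
      φ (π / 4 + profD * trap w s (σ - 1)) *
        Real.sqrt (1 - (profD * deriv (trap w s) (σ - 1)) ^ 2)
    rw [(prof_hasDerivAt w m s s' σ).deriv, z2, mul_zero, sub_zero]
    have e1 : prof w m s s' σ = π / 4 + profD * trap w s (σ - 1) := by
      unfold prof
      rw [z1, mul_zero, sub_zero]
    rw [e1]
  have p2 : ∫ σ in m..ℓ, φ (prof w m s s' σ) *
      Real.sqrt (1 - deriv (prof w m s s') σ ^ 2) =
      (ℓ - m - 2 * w - s') * φ (π / 4) + s' * φ (π / 4 - profD) + bumpK φ w (-profD) := by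
    have hb := bump_integral φ (π / 4) (-profD) hφ2 hw hs' (m + 1) (A := m) (B := ℓ)
      (by linarith) (by rw [hm] at hℓ ⊢; linarith)
    rw [← sub_eq_add_neg] at hb
    rw [bumpK, ← hb]
    apply intervalIntegral.integral_congr
    intro σ hσ
    rw [Set.uIcc_of_le (by linarith : m ≤ ℓ)] at hσ
    have hσm : m ≤ σ := hσ.1
    have z1 : trap w s (σ - 1) = 0 :=
      trap_eq_zero_of_ge hw s (by rw [hm] at hσm; linarith)
    have z2 : deriv (trap w s) (σ - 1) = 0 :=
      trap_deriv_eq_zero_of_gt hw s (by rw [hm] at hσm; linarith)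
    show φ (prof w m s s' σ) * Real.sqrt (1 - deriv (prof w m s s') σ ^ 2) =
      φ (π / 4 + -profD * trap w s' (σ - (m + 1))) *
        Real.sqrt (1 - (-profD * deriv (trap w s') (σ - (m + 1))) ^ 2)
    rw [(prof_hasDerivAt w m s s' σ).deriv, z2, mul_zero, zero_sub]
    have e1 : prof w m s s' σ = π / 4 + -profD * trap w s' (σ - (m + 1)) := by
      unfold prof
      rw [z1, mul_zero, add_zero, show σ - m - 1 = σ - (m + 1) by ring]
      ring
    rw [e1, show σ - m - 1 = σ - (m + 1) by ring, neg_mul, neg_mul]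
  rw [← intervalIntegral.integral_add_adjacent_intervals (hint 0 m) (hint m ℓ), p1, p2]
  ring

theorem exists_profile : ∃ ℓ₀ : ℝ, 0 < ℓ₀ ∧ ∀ ℓ : ℝ, ℓ₀ ≤ ℓ → ∀ ω₁ ω₂ : ℝ,
    ∃ a : ℝ → ℝ, ContDiff ℝ ∞ a ∧ (∀ σ, a (σ + ℓ) = a σ) ∧
      (∀ σ, 0 < Real.sin (a σ)) ∧ (∀ σ, 0 < Real.cos (a σ)) ∧
      (∀ σ, |deriv a σ| ≤ 1 / 2) ∧
      (∃ n : ℤ, ∫ σ in (0 : ℝ)..ℓ,
          Real.sin (a σ) / Real.cos (a σ) * Real.sqrt (1 - deriv a σ ^ 2) = ω₁ + 2 * π * n) ∧
      (∃ n : ℤ, ∫ σ in (0 : ℝ)..ℓ,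
          Real.cos (a σ) / Real.sin (a σ) * Real.sqrt (1 - deriv a σ ^ 2) = ω₂ + 2 * π * n) := by
  obtain ⟨M, hM0, hM⟩ := exists_trap_deriv_bound
  have hd := profD_pos
  have hd4 := profD_lt
  have hπ := Real.pi_pos
  obtain ⟨w, hw_def⟩ : ∃ w : ℝ, w = max 1 (4 * profD * M) := ⟨_, rfl⟩
  have hw1 : 1 ≤ w := by rw [hw_def]; exact le_max_left _ _
  have hw : 0 < w := by linarith
  have hwM : 4 * profD * M ≤ w := by rw [hw_def]; exact le_max_right _ _
  obtain ⟨m, hm⟩ : ∃ m : ℝ, m = 2 * w + 4 * π + 2 := ⟨_, rfl⟩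
  have hm0 : 0 ≤ m := by rw [hm]; linarith
  refine ⟨2 * m, by rw [hm]; linarith, ?_⟩
  intro ℓ hℓ ω₁ ω₂
  -- the two integrands are continuous near the values of the profile
  have hrange : ∀ x : ℝ, π / 4 - profD ≤ x → x ≤ π / 4 + profD →
      0 < Real.sin x ∧ 0 < Real.cos x := by
    intro x h1 h2
    exact ⟨Real.sin_pos_of_pos_of_lt_pi (by linarith) (by linarith),
      Real.cos_pos_of_mem_Ioo ⟨by linarith, by linarith⟩⟩
  have hφ₁ : ∀ x, π / 4 - profD ≤ x → x ≤ π / 4 + profD →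
      ContinuousAt (fun x : ℝ => Real.sin x / Real.cos x) x := by
    intro x h1 h2
    exact ContinuousAt.div Real.continuous_sin.continuousAt Real.continuous_cos.continuousAt
      (hrange x h1 h2).2.ne'
  have hφ₂ : ∀ x, π / 4 - profD ≤ x → x ≤ π / 4 + profD →
      ContinuousAt (fun x : ℝ => Real.cos x / Real.sin x) x := by
    intro x h1 h2
    exact ContinuousAt.div Real.continuous_cos.continuousAt Real.continuous_sin.continuousAt
      (hrange x h1 h2).1.ne'
  -- the constants, which do not depend on the plateau lengths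
  obtain ⟨c1, hc1⟩ : ∃ c1 : ℝ, c1 = ℓ - 4 * w +
      (bumpK (fun x : ℝ => Real.sin x / Real.cos x) w profD +
        bumpK (fun x : ℝ => Real.sin x / Real.cos x) w (-profD)) := ⟨_, rfl⟩
  obtain ⟨c2, hc2⟩ : ∃ c2 : ℝ, c2 = ℓ - 4 * w +
      (bumpK (fun x : ℝ => Real.cos x / Real.sin x) w profD +
        bumpK (fun x : ℝ => Real.cos x / Real.sin x) w (-profD)) := ⟨_, rfl⟩
  have h2π : 0 < 2 * π := by linarith
  obtain ⟨n1, hn1⟩ : ∃ n1 : ℤ, n1 = ⌊(ω₁ - c1) / (2 * π)⌋ := ⟨_, rfl⟩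
  obtain ⟨n2, hn2⟩ : ∃ n2 : ℤ, n2 = ⌊(ω₂ - c2) / (2 * π)⌋ := ⟨_, rfl⟩
  obtain ⟨u1, hu1⟩ : ∃ u1 : ℝ, u1 = (ω₁ - c1) - 2 * π * n1 := ⟨_, rfl⟩
  obtain ⟨u2, hu2⟩ : ∃ u2 : ℝ, u2 = (ω₂ - c2) - 2 * π * n2 := ⟨_, rfl⟩
  have hu1a : 0 ≤ u1 := by
    have h := Int.floor_le ((ω₁ - c1) / (2 * π))
    rw [← hn1, le_div_iff₀ h2π] at h
    rw [hu1]
    linarith
  have hu1b : u1 < 2 * π := by
    have h := Int.lt_floor_add_one ((ω₁ - c1) / (2 * π))
    rw [← hn1, div_lt_iff₀ h2π] at h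
    rw [hu1]
    linarith
  have hu2a : 0 ≤ u2 := by
    have h := Int.floor_le ((ω₂ - c2) / (2 * π))
    rw [← hn2, le_div_iff₀ h2π] at h
    rw [hu2]
    linarith
  have hu2b : u2 < 2 * π := by
    have h := Int.lt_floor_add_one ((ω₂ - c2) / (2 * π))
    rw [← hn2, div_lt_iff₀ h2π] at h
    rw [hu2]
    linarith
  obtain ⟨s, hs_def⟩ : ∃ s : ℝ, s = (4 * u1 + 2 * u2) / 3 := ⟨_, rfl⟩
  obtain ⟨s', hs'_def⟩ : ∃ s' : ℝ, s' = (2 * u1 + 4 * u2) / 3 := ⟨_, rfl⟩
  have hs : 0 ≤ s := by rw [hs_def]; linarith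
  have hs4 : s ≤ 4 * π := by rw [hs_def]; linarith
  have hs' : 0 ≤ s' := by rw [hs'_def]; linarith
  have hs4' : s' ≤ 4 * π := by rw [hs'_def]; linarith
  -- the periodic extension of the profile
  obtain ⟨a, ha, hper, haeq, hderiv, hval⟩ :=
    exists_periodic_extension (prof w m s s') (prof_contDiff w m s s') (π / 4) 1 ℓ one_pos
      (by rw [hm] at hℓ; linarith)
      (fun σ hσ => prof_eq_of_le hw hm0 s s' hσ)
      (fun σ hσ => prof_eq_of_ge hw (by rw [hm] at hℓ; linarith)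
        (by rw [hm] at hℓ ⊢; linarith))
  have hℓ0 : 0 ≤ ℓ := by linarith
  have key1 : ∫ σ in (0 : ℝ)..ℓ,
      Real.sin (a σ) / Real.cos (a σ) * Real.sqrt (1 - deriv a σ ^ 2) =
      (ℓ - 4 * w - s - s') * (Real.sin (π / 4) / Real.cos (π / 4)) +
        s * (Real.sin (π / 4 + profD) / Real.cos (π / 4 + profD)) +
        s' * (Real.sin (π / 4 - profD) / Real.cos (π / 4 - profD)) +
        (bumpK (fun x : ℝ => Real.sin x / Real.cos x) w profD +
          bumpK (fun x : ℝ => Real.sin x / Real.cos x) w (-profD)) := by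
    rw [← prof_integral (fun x : ℝ => Real.sin x / Real.cos x) hφ₁ hw hs hs4 hs' hs4' hm hℓ]
    apply intervalIntegral.integral_congr
    intro σ hσ
    rw [Set.uIcc_of_le hℓ0] at hσ
    show Real.sin (a σ) / Real.cos (a σ) * Real.sqrt (1 - deriv a σ ^ 2) =
      Real.sin (prof w m s s' σ) / Real.cos (prof w m s s' σ) *
        Real.sqrt (1 - deriv (prof w m s s') σ ^ 2)
    rw [haeq σ hσ, hderiv σ hσ]
  have key2 : ∫ σ in (0 : ℝ)..ℓ,
      Real.cos (a σ) / Real.sin (a σ) * Real.sqrt (1 - deriv a σ ^ 2) =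
      (ℓ - 4 * w - s - s') * (Real.cos (π / 4) / Real.sin (π / 4)) +
        s * (Real.cos (π / 4 + profD) / Real.sin (π / 4 + profD)) +
        s' * (Real.cos (π / 4 - profD) / Real.sin (π / 4 - profD)) +
        (bumpK (fun x : ℝ => Real.cos x / Real.sin x) w profD +
          bumpK (fun x : ℝ => Real.cos x / Real.sin x) w (-profD)) := by
    rw [← prof_integral (fun x : ℝ => Real.cos x / Real.sin x) hφ₂ hw hs hs4 hs' hs4' hm hℓ]
    apply intervalIntegral.integral_congr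
    intro σ hσ
    rw [Set.uIcc_of_le hℓ0] at hσ
    show Real.cos (a σ) / Real.sin (a σ) * Real.sqrt (1 - deriv a σ ^ 2) =
      Real.cos (prof w m s s' σ) / Real.sin (prof w m s s' σ) *
        Real.sqrt (1 - deriv (prof w m s s') σ ^ 2)
    rw [haeq σ hσ, hderiv σ hσ]
  refine ⟨a, ha, hper, ?_, ?_, ?_, ⟨-n1, ?_⟩, ⟨-n2, ?_⟩⟩
  · intro σ
    obtain ⟨σ₀, -, h1, -⟩ := hval σ
    rw [h1]
    exact (hrange _ (prof_mem w m s s' σ₀).1 (prof_mem w m s s' σ₀).2).1
  · intro σ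
    obtain ⟨σ₀, -, h1, -⟩ := hval σ
    rw [h1]
    exact (hrange _ (prof_mem w m s s' σ₀).1 (prof_mem w m s s' σ₀).2).2
  · intro σ
    obtain ⟨σ₀, -, -, h2⟩ := hval σ
    rw [h2]
    exact prof_deriv_bound hM hw hwM m s s' σ₀
  · rw [key1, profD_tan_zero, profD_tan_plus, profD_tan_minus]
    push_cast
    rw [hs_def, hs'_def, hu1, hc1]
    ring
  · rw [key2, profD_cot_zero, profD_cot_plus, profD_cot_minus]
    push_cast
    rw [hs_def, hs'_def, hu2, hc2]
    ring

end Vale.Agent.Lib.P205
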