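import Mathlib
import Vale.Agent.Lib.P205.Warped
import Vale.Agent.Lib.P205.Twist.Polar
import Vale.Agent.Lib.P205.Twist.Profile

namespace Vale.Agent.Lib.P205

open Real MeasureTheory
open scoped ContDiff

theorem alg_xx {k c s q e V G ρ F E r : ℝ} (hk : k ≠ 0) (hc : c ≠ 0) (hs : s ≠ 0)
    (hG : G ≠ 0) (hcs : c ^ 2 + s ^ 2 = 1) (hq : q ^ 2 = 1 - e ^ 2)
    (hV : G * V ^ 2 = k ^ 2 * (E - F ^ 2 / G) - ρ ^ 2) (hr : r ^ 2 = G) :
    1 / k ^ 2 * (ρ ^ 2 + r ^ 2 * (e * V) ^ 2 +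
      r ^ 2 * (c ^ 2 * (k * (F / G) + s / c * q * V) ^ 2 +
        s ^ 2 * (k * (F / G) - c / s * q * V) ^ 2)) = E := by
  have h1 : c ^ 2 * (k * (F / G) + s / c * q * V) ^ 2 =
      (c * (k * (F / G)) + s * q * V) ^ 2 := by
    field_simp
  have h2 : s ^ 2 * (k * (F / G) - c / s * q * V) ^ 2 =
      (s * (k * (F / G)) - c * q * V) ^ 2 := by
    field_simp
  rw [h1, h2, hr]
  obtain ⟨x, hx⟩ : ∃ x, x = F / G := ⟨_, rfl⟩
  have hx' : G * x = F := by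
    rw [hx]
    field_simp
  have hV' : G * V ^ 2 = k ^ 2 * (E - F * x) - ρ ^ 2 := by
    rw [hV, hx]
    ring
  rw [← hx]
  rw [div_mul_eq_mul_div, one_mul, div_eq_iff (pow_ne_zero 2 hk)]
  linear_combination (G * (k ^ 2 * x ^ 2 + q ^ 2 * V ^ 2)) * hcs + (G * V ^ 2) * hq + hV' +
    (k ^ 2 * x) * hx'

theorem alg_xy {k c s q V G F r : ℝ} (hk : k ≠ 0) (hc : c ≠ 0) (hs : s ≠ 0) (hG : G ≠ 0)
    (hcs : c ^ 2 + s ^ 2 = 1) (hr : r ^ 2 = G) :
    1 / k * (r ^ 2 * (c ^ 2 * (k * (F / G) + s / c * q * V) +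
      s ^ 2 * (k * (F / G) - c / s * q * V))) = F := by
  have h1 : c ^ 2 * (k * (F / G) + s / c * q * V) =
      c ^ 2 * (k * (F / G)) + c * s * q * V := by
    field_simp
  have h2 : s ^ 2 * (k * (F / G) - c / s * q * V) =
      s ^ 2 * (k * (F / G)) - c * s * q * V := by
    field_simp
  rw [h1, h2, hr]
  have e : c ^ 2 * (k * (F / G)) + c * s * q * V + (s ^ 2 * (k * (F / G)) - c * s * q * V) =
      k * (F / G) := by
    linear_combination (k * (F / G)) * hcs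
  rw [e]
  field_simp

/-- Choice of the winding number `k` and of the speed `V` of the arclength reparametrisation. -/
theorem exists_speed {L : ℝ} (hL : 0 < L) {E F G : ℝ → ℝ} (hE : ContDiff ℝ ∞ E)
    (hF : ContDiff ℝ ∞ F) (hG : ContDiff ℝ ∞ G) (hGpos : ∀ x, 0 < G x)
    (hdet : ∀ x, F x ^ 2 < E x * G x) (hEper : ∀ x, E (x + L) = E x)
    (hFper : ∀ x, F (x + L) = F x) (hGper : ∀ x, G (x + L) = G x) {c₀ : ℝ} (hc₀ : 0 < c₀) :
    ∃ k : ℕ, 0 < k ∧ ∃ V : ℝ → ℝ, ContDiff ℝ ∞ V ∧ (∀ x, V (x + L) = V x) ∧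
      (∀ x, c₀ ≤ V x) ∧ ∀ x, G x * V x ^ 2 =
        (k : ℝ) ^ 2 * (E x - F x ^ 2 / G x) - deriv (fun x => √(G x)) x ^ 2 := by
  set r : ℝ → ℝ := fun x => √(G x) with hrdef
  have hr : ContDiff ℝ ∞ r := hG.sqrt (fun x => (hGpos x).ne')
  have hrper : ∀ x, r (x + L) = r x := fun x => by simp [hrdef, hGper x]
  have hdr : ContDiff ℝ ∞ (deriv r) := (contDiff_infty_iff_deriv.mp hr).2
  have hdrper : ∀ x, deriv r (x + L) = deriv r x := deriv_add_period hrper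
  set D : ℝ → ℝ := fun x => E x - F x ^ 2 / G x with hDdef
  have hD : ContDiff ℝ ∞ D := hE.sub ((hF.pow 2).div hG (fun x => (hGpos x).ne'))
  have hDpos : ∀ x, 0 < D x := by
    intro x
    have h : F x ^ 2 / G x < E x := by
      rw [div_lt_iff₀ (hGpos x)]
      exact hdet x
    simp only [hDdef]
    linarith
  have hDper : ∀ x, D (x + L) = D x := fun x => by simp [hDdef, hEper x, hFper x, hGper x]
  have hfc : Continuous (fun x => (deriv r x ^ 2 + c₀ ^ 2 * G x) / D x) :=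
    ((hdr.continuous.pow 2).add (continuous_const.mul hG.continuous)).div hD.continuous
      (fun x => (hDpos x).ne')
  obtain ⟨C, hC⟩ := exists_bound_of_periodic hL hfc
    (fun x => by simp only [hdrper x, hGper x, hDper x])
  obtain ⟨k, hk⟩ := exists_nat_gt (max C 1)
  have hk1 : (1 : ℝ) < k := lt_of_le_of_lt (le_max_right _ _) hk
  have hkC : C < (k : ℝ) ^ 2 := by
    have h1 : C < k := lt_of_le_of_lt (le_max_left _ _) hk
    nlinarith
  have hgt : ∀ x, c₀ ^ 2 * G x < (k : ℝ) ^ 2 * D x - deriv r x ^ 2 := by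
    intro x
    have h1 : (deriv r x ^ 2 + c₀ ^ 2 * G x) / D x < (k : ℝ) ^ 2 := lt_of_le_of_lt (hC x) hkC
    rw [div_lt_iff₀ (hDpos x)] at h1
    linarith
  have hWgt : ∀ x, c₀ ^ 2 < ((k : ℝ) ^ 2 * D x - deriv r x ^ 2) / G x := by
    intro x
    rw [lt_div_iff₀ (hGpos x)]
    exact hgt x
  have hWpos : ∀ x, 0 < ((k : ℝ) ^ 2 * D x - deriv r x ^ 2) / G x :=
    fun x => lt_trans (by positivity) (hWgt x)
  have hW : ContDiff ℝ ∞ (fun x => ((k : ℝ) ^ 2 * D x - deriv r x ^ 2) / G x) :=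
    ((contDiff_const.mul hD).sub (hdr.pow 2)).div hG (fun x => (hGpos x).ne')
  refine ⟨k, ?_, fun x => √(((k : ℝ) ^ 2 * D x - deriv r x ^ 2) / G x),
    hW.sqrt (fun x => (hWpos x).ne'), ?_, ?_, ?_⟩
  · have h0 : (0 : ℝ) < k := lt_trans zero_lt_one hk1
    exact_mod_cast h0
  · intro x
    simp only [hDper x, hdrper x, hGper x]
  · intro x
    have h := Real.sqrt_le_sqrt (hWgt x).le
    rwa [Real.sqrt_sq hc₀.le] at h
  · intro x
    have hGne : G x ≠ 0 := (hGpos x).ne'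
    rw [Real.sq_sqrt (hWpos x).le]
    simp only [hDdef]
    field_simp

/-- The two phase functions attached to a profile. -/
theorem exists_phases {a : ℝ → ℝ} {ℓ : ℝ} (ha : ContDiff ℝ ∞ a) (haper : ∀ σ, a (σ + ℓ) = a σ)
    (hsin : ∀ σ, 0 < sin (a σ)) (hcos : ∀ σ, 0 < cos (a σ))
    (hda : ∀ σ, |deriv a σ| ≤ 1 / 2) :
    ∃ Θ₁ Θ₂ : ℝ → ℝ, ContDiff ℝ ∞ Θ₁ ∧ ContDiff ℝ ∞ Θ₂ ∧
      (∀ σ, √(1 - deriv a σ ^ 2) ^ 2 = 1 - deriv a σ ^ 2) ∧
      (∀ σ, HasDerivAt Θ₁ (sin (a σ) / cos (a σ) * √(1 - deriv a σ ^ 2)) σ) ∧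
      (∀ σ, HasDerivAt Θ₂ (cos (a σ) / sin (a σ) * √(1 - deriv a σ ^ 2)) σ) ∧
      (∀ σ, Θ₁ (σ + ℓ) = Θ₁ σ +
        ∫ t in (0 : ℝ)..ℓ, sin (a t) / cos (a t) * √(1 - deriv a t ^ 2)) ∧
      (∀ σ, Θ₂ (σ + ℓ) = Θ₂ σ +
        ∫ t in (0 : ℝ)..ℓ, cos (a t) / sin (a t) * √(1 - deriv a t ^ 2)) := by
  have hdasm : ContDiff ℝ ∞ (deriv a) := (contDiff_infty_iff_deriv.mp ha).2
  have hdaper : ∀ σ, deriv a (σ + ℓ) = deriv a σ := deriv_add_period haper
  have hpos : ∀ σ, 0 < 1 - deriv a σ ^ 2 := by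
    intro σ
    have h := abs_le.mp (hda σ)
    nlinarith [h.1, h.2]
  have hq : ContDiff ℝ ∞ (fun σ => √(1 - deriv a σ ^ 2)) :=
    (contDiff_const.sub (hdasm.pow 2)).sqrt (fun σ => (hpos σ).ne')
  have hT₁ : ContDiff ℝ ∞ (fun σ => sin (a σ) / cos (a σ) * √(1 - deriv a σ ^ 2)) :=
    ((Real.contDiff_sin.comp ha).div (Real.contDiff_cos.comp ha)
      (fun σ => (hcos σ).ne')).mul hq
  have hT₂ : ContDiff ℝ ∞ (fun σ => cos (a σ) / sin (a σ) * √(1 - deriv a σ ^ 2)) :=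
    ((Real.contDiff_cos.comp ha).div (Real.contDiff_sin.comp ha)
      (fun σ => (hsin σ).ne')).mul hq
  refine ⟨fun σ => ∫ t in (0 : ℝ)..σ, sin (a t) / cos (a t) * √(1 - deriv a t ^ 2),
    fun σ => ∫ t in (0 : ℝ)..σ, cos (a t) / sin (a t) * √(1 - deriv a t ^ 2),
    primitive_contDiff hT₁, primitive_contDiff hT₂, fun σ => Real.sq_sqrt (hpos σ).le,
    primitive_hasDerivAt hT₁.continuous, primitive_hasDerivAt hT₂.continuous, ?_, ?_⟩
  · intro σ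
    exact primitive_add_period hT₁.continuous (fun x => by simp only [haper x, hdaper x]) σ
  · intro σ
    exact primitive_add_period hT₂.continuous (fun x => by simp only [haper x, hdaper x]) σ

/-- Every smooth metric `E(x) dx^2 + 2 F(x) dx dy + G(x) dy^2` on the torus
`R^2 / (L Z x 2 pi Z)` whose coefficients depend on `x` only is induced by a smooth doubly
periodic map into Euclidean 4-space. -/
theorem exists_invariant_torus {L : ℝ} (hL : 0 < L) {E F G : ℝ → ℝ} (hE : ContDiff ℝ ∞ E)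
    (hF : ContDiff ℝ ∞ F) (hG : ContDiff ℝ ∞ G) (hGpos : ∀ x, 0 < G x)
    (hdet : ∀ x, F x ^ 2 < E x * G x) (hEper : ∀ x, E (x + L) = E x)
    (hFper : ∀ x, F (x + L) = F x) (hGper : ∀ x, G (x + L) = G x) :
    ∃ Φ : ℝ × ℝ → EuclideanSpace ℝ (Fin 4), ContDiff ℝ ∞ Φ ∧
      (∀ x y, Φ (x + L, y) = Φ (x, y)) ∧ (∀ x y, Φ (x, y + 2 * π) = Φ (x, y)) ∧
      ∀ p v w : ℝ × ℝ, inner ℝ (fderiv ℝ Φ p v) (fderiv ℝ Φ p w) =
        E p.1 * v.1 * w.1 + F p.1 * (v.1 * w.2 + v.2 * w.1) + G p.1 * v.2 * w.2 := by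
  obtain ⟨ℓ₀, hℓ₀, hprof⟩ := exists_profile
  obtain ⟨k, hk0, V, hV, hVper, hVge, hV2⟩ :=
    exists_speed hL hE hF hG hGpos hdet hEper hFper hGper (div_pos hℓ₀ hL)
  have hkpos : (0 : ℝ) < k := by exact_mod_cast hk0
  -- the radius
  obtain ⟨r, hrdef⟩ : ∃ r : ℝ → ℝ, r = fun x => √(G x) := ⟨_, rfl⟩
  rw [← hrdef] at hV2
  have hr : ContDiff ℝ ∞ r := by
    rw [hrdef]
    exact hG.sqrt (fun x => (hGpos x).ne')
  have hrper : ∀ x, r (x + L) = r x := fun x => by simp [hrdef, hGper x]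
  have hr2 : ∀ x, r x ^ 2 = G x := fun x => by
    rw [hrdef]
    exact Real.sq_sqrt (hGpos x).le
  -- the arclength reparametrisation
  obtain ⟨S, hSdef⟩ : ∃ S : ℝ → ℝ, S = fun x => ∫ t in (0 : ℝ)..x, V t := ⟨_, rfl⟩
  have hSd : ∀ x, HasDerivAt S (V x) x := by
    rw [hSdef]
    exact primitive_hasDerivAt hV.continuous
  have hS : ContDiff ℝ ∞ S := by
    rw [hSdef]
    exact primitive_contDiff hV
  have hSper : ∀ x, S (x + L) = S x + S L := by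
    intro x
    simp only [hSdef]
    exact primitive_add_period hV.continuous hVper x
  have hℓge : ℓ₀ ≤ S L := by
    have h1 : (∫ _t in (0 : ℝ)..L, ℓ₀ / L) ≤ ∫ t in (0 : ℝ)..L, V t :=
      intervalIntegral.integral_mono_on hL.le intervalIntegrable_const
        (hV.continuous.intervalIntegrable _ _) (fun x _ => hVge x)
    have h2 : (∫ _t in (0 : ℝ)..L, ℓ₀ / L) = ℓ₀ := by
      rw [intervalIntegral.integral_const]
      simp
      field_simp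
    have h3 : S L = ∫ t in (0 : ℝ)..L, V t := by rw [hSdef]
    linarith
  -- the twist
  obtain ⟨φ, hφdef⟩ : ∃ φ : ℝ → ℝ, φ = fun x => ∫ t in (0 : ℝ)..x, F t / G t := ⟨_, rfl⟩
  have hFG : ContDiff ℝ ∞ (fun x => F x / G x) := hF.div hG (fun x => (hGpos x).ne')
  have hφd : ∀ x, HasDerivAt φ (F x / G x) x := by
    rw [hφdef]
    exact primitive_hasDerivAt hFG.continuous
  have hφ : ContDiff ℝ ∞ φ := by
    rw [hφdef]
    exact primitive_contDiff hFG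
  have hφper : ∀ x, φ (x + L) = φ x + φ L := by
    intro x
    simp only [hφdef]
    exact primitive_add_period hFG.continuous (fun x => by simp only [hFper x, hGper x]) x
  -- the profile and its phases
  obtain ⟨a, ha, haper, hsin, hcos, hda, ⟨n₁, hn₁⟩, ⟨n₂, hn₂⟩⟩ :=
    hprof (S L) hℓge (-(k * φ L)) (k * φ L)
  obtain ⟨Θ₁, Θ₂, hΘ₁, hΘ₂, hq2, hΘ₁d, hΘ₂d, hΘ₁per, hΘ₂per⟩ :=
    exists_phases ha haper hsin hcos hda
  rw [hn₁] at hΘ₁per
  rw [hn₂] at hΘ₂per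
  have hα : ContDiff ℝ ∞ (fun x => a (S x)) := ha.comp hS
  have hψ₁ : ContDiff ℝ ∞ (fun x => k * φ x + Θ₁ (S x)) :=
    (contDiff_const.mul hφ).add (hΘ₁.comp hS)
  have hψ₂ : ContDiff ℝ ∞ (fun x => k * φ x - Θ₂ (S x)) :=
    (contDiff_const.mul hφ).sub (hΘ₂.comp hS)
  refine ⟨polarMap r (fun x => a (S x)) (fun x => k * φ x + Θ₁ (S x))
    (fun x => k * φ x - Θ₂ (S x)) k, polarMap_contDiff _ hr hα hψ₁ hψ₂, ?_, ?_, ?_⟩
  · refine polarMap_add_period (n₁ := n₁) (n₂ := -n₂) _ hrper ?_ ?_ ?_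
    · intro x
      show a (S (x + L)) = a (S x)
      rw [hSper, haper]
    · intro x
      show k * φ (x + L) + Θ₁ (S (x + L)) = k * φ x + Θ₁ (S x) + n₁ * (2 * π)
      rw [hSper, hφper, hΘ₁per]
      ring
    · intro x
      show k * φ (x + L) - Θ₂ (S (x + L)) = k * φ x - Θ₂ (S x) + ((-n₂ : ℤ) : ℝ) * (2 * π)
      rw [hSper, hφper, hΘ₂per]
      push_cast
      ring
  · exact polarMap_add_two_pi _ _ _ _ k
  · intro p v w
    have h1 : HasDerivAt r (deriv r p.1) p.1 := ((hr.differentiable (by simp)) p.1).hasDerivAt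
    have h2 : HasDerivAt (fun x => a (S x)) (deriv a (S p.1) * V p.1) p.1 :=
      ((ha.differentiable (by simp)) (S p.1)).hasDerivAt.comp p.1 (hSd p.1)
    have h3 : HasDerivAt (fun x => k * φ x + Θ₁ (S x))
        (k * (F p.1 / G p.1) +
          sin (a (S p.1)) / cos (a (S p.1)) * √(1 - deriv a (S p.1) ^ 2) * V p.1) p.1 :=
      ((hφd p.1).const_mul (k : ℝ)).add ((hΘ₁d (S p.1)).comp p.1 (hSd p.1))
    have h4 : HasDerivAt (fun x => k * φ x - Θ₂ (S x))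
        (k * (F p.1 / G p.1) -
          cos (a (S p.1)) / sin (a (S p.1)) * √(1 - deriv a (S p.1) ^ 2) * V p.1) p.1 :=
      ((hφd p.1).const_mul (k : ℝ)).sub ((hΘ₂d (S p.1)).comp p.1 (hSd p.1))
    rw [polarMap_inner hkpos.ne' hr hα hψ₁ hψ₂ h1 h2 h3 h4]
    have X1 := alg_xx (k := k) (c := cos (a (S p.1))) (s := sin (a (S p.1)))
      (q := √(1 - deriv a (S p.1) ^ 2)) (e := deriv a (S p.1)) (V := V p.1) (G := G p.1)
      (ρ := deriv r p.1) (F := F p.1) (E := E p.1) (r := r p.1) hkpos.ne' (hcos _).ne'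
      (hsin _).ne' (hGpos _).ne' (cos_sq_add_sin_sq _) (hq2 _) (hV2 _) (hr2 _)
    have X2 := alg_xy (k := k) (c := cos (a (S p.1))) (s := sin (a (S p.1)))
      (q := √(1 - deriv a (S p.1) ^ 2)) (V := V p.1) (G := G p.1) (F := F p.1) (r := r p.1)
      hkpos.ne' (hcos _).ne' (hsin _).ne' (hGpos _).ne' (cos_sq_add_sin_sq _) (hr2 _)
    have X3 := hr2 p.1
    linear_combination (v.1 * w.1) * X1 + (v.1 * w.2 + v.2 * w.1) * X2 + (v.2 * w.2) * X3

end Vale.Agent.Lib.P205
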