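import Mathlib
import Vale.Agent.Lib.P205.Twist.Main

namespace Vale.Agent.Lib.P205

open Real
open scoped ContDiff

/-- The shear `(x, y) ↦ (x, y - κ x)` of the plane, as a continuous linear map. -/
noncomputable def shearMap (κ : ℝ) : ℝ × ℝ →L[ℝ] ℝ × ℝ :=
  (ContinuousLinearMap.fst ℝ ℝ ℝ).prod
    (ContinuousLinearMap.snd ℝ ℝ ℝ - κ • ContinuousLinearMap.fst ℝ ℝ ℝ)

theorem shearMap_apply (κ : ℝ) (p : ℝ × ℝ) : shearMap κ p = (p.1, p.2 - κ * p.1) := by
  simp [shearMap]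

/-- Every smooth metric `E(x) dx^2 + 2 F(x) dx dy + G(x) dy^2` with coefficients depending on
`x` only, on the torus `R^2 / (Z (L, c) + Z (0, 2 pi))` with an arbitrary shear `c` of the
period lattice, is induced by a smooth map into Euclidean 4-space which is invariant under the
period lattice. -/
theorem exists_invariant_torus_shear {L : ℝ} (hL : 0 < L) (c : ℝ) {E F G : ℝ → ℝ}
    (hE : ContDiff ℝ ∞ E) (hF : ContDiff ℝ ∞ F) (hG : ContDiff ℝ ∞ G) (hGpos : ∀ x, 0 < G x)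
    (hdet : ∀ x, F x ^ 2 < E x * G x) (hEper : ∀ x, E (x + L) = E x)
    (hFper : ∀ x, F (x + L) = F x) (hGper : ∀ x, G (x + L) = G x) :
    ∃ Φ : ℝ × ℝ → EuclideanSpace ℝ (Fin 4), ContDiff ℝ ∞ Φ ∧
      (∀ x y, Φ (x + L, y + c) = Φ (x, y)) ∧ (∀ x y, Φ (x, y + 2 * π) = Φ (x, y)) ∧
      ∀ p v w : ℝ × ℝ, inner ℝ (fderiv ℝ Φ p v) (fderiv ℝ Φ p w) =
        E p.1 * v.1 * w.1 + F p.1 * (v.1 * w.2 + v.2 * w.1) + G p.1 * v.2 * w.2 := by
  obtain ⟨κ, hκ⟩ : ∃ κ : ℝ, κ = c / L := ⟨_, rfl⟩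
  have hκL : κ * L = c := by
    rw [hκ]
    field_simp
  have hE' : ContDiff ℝ ∞ (fun x => E x + 2 * κ * F x + κ ^ 2 * G x) :=
    (hE.add (contDiff_const.mul hF)).add (contDiff_const.mul hG)
  have hF' : ContDiff ℝ ∞ (fun x => F x + κ * G x) := hF.add (contDiff_const.mul hG)
  have hdet' : ∀ x, (F x + κ * G x) ^ 2 < (E x + 2 * κ * F x + κ ^ 2 * G x) * G x := by
    intro x
    nlinarith [hdet x]
  obtain ⟨Ψ, hΨ, hΨL, hΨπ, hΨg⟩ := exists_invariant_torus hL hE' hF' hG hGpos hdet'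
    (fun x => by simp only [hEper x, hFper x, hGper x])
    (fun x => by simp only [hFper x, hGper x]) hGper
  refine ⟨fun p => Ψ (shearMap κ p), hΨ.comp (shearMap κ).contDiff, ?_, ?_, ?_⟩
  · intro x y
    show Ψ (shearMap κ (x + L, y + c)) = Ψ (shearMap κ (x, y))
    rw [shearMap_apply, shearMap_apply]
    have e : y + c - κ * (x + L) = y - κ * x := by
      rw [← hκL]
      ring
    simp only [e]
    exact hΨL x (y - κ * x)
  · intro x y
    show Ψ (shearMap κ (x, y + 2 * π)) = Ψ (shearMap κ (x, y))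
    rw [shearMap_apply, shearMap_apply]
    have e : y + 2 * π - κ * x = y - κ * x + 2 * π := by ring
    simp only [e]
    exact hΨπ x (y - κ * x)
  · intro p v w
    have h1 : HasFDerivAt Ψ (fderiv ℝ Ψ (shearMap κ p)) (shearMap κ p) :=
      ((hΨ.differentiable (by simp)) (shearMap κ p)).hasFDerivAt
    have hfd : fderiv ℝ (fun p => Ψ (shearMap κ p)) p =
        (fderiv ℝ Ψ (shearMap κ p)).comp (shearMap κ) :=
      (h1.comp p (shearMap κ).hasFDerivAt).fderiv
    rw [hfd]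
    simp only [ContinuousLinearMap.comp_apply]
    rw [hΨg]
    simp only [shearMap_apply]
    ring

end Vale.Agent.Lib.P205
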